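import Mathlib
import Vale.Agent.P036.LB.Heil

/-!
Blueprint S for Heilbronn's problem, blocks S5 and S6: parameters, monotonicity, transfer.
`CoreS m` is the statement to be proved by blocks S1-S4 (for some number `m` of planes).
-/

namespace Vale.Agent.P036.S
open Finset Filter Real Vale.Agent.P036.LB

/-- the output of the combinatorial core for `m` internal planes over a real quadratic ring -/
def CoreS (m : ℕ) : Prop := ∃ l0 : ℕ, ∀ (l M T K n p : ℕ), l.Prime → l0 ≤ l → l ∣ M → l ^ 15 ≤ M →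
  p.Prime → l * M ^ 4 < p → 1 ≤ T → T < p → 0 < K →
  2 * n * K * p ^ (m + 1) * l ^ 31 ≤ T ^ 2 * (l ^ 111 * (M / l) ^ (4 * m)) →
  (132 : ℝ) * (T:ℝ) ^ 2 * (1 + Real.log T) *
      (3 * (l:ℝ) ^ 222 * ((M / l : ℕ) : ℝ) ^ (12 * m - 6) * (33 * (M:ℝ) ^ 4 * (1 + Real.log M))) *
      (l:ℝ) ^ 31
    ≤ (K:ℝ) ^ 2 * ((l:ℝ) ^ 111 * ((M / l : ℕ) : ℝ) ^ (4 * m)) * (p:ℝ) ^ (2 * m + 1) →
  132 * (1 + 3 * ((2 * M * (2 * M / l ^ 15 + 1) : ℕ) : ℝ) ^ (2 * m) * (M:ℝ) ^ 2) *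
      (T:ℝ) ^ 2 * (1 + Real.log T)
    ≤ (K:ℝ) ^ 2 * (p:ℝ) ^ (m + 1) →
  ∃ Y : Finset (ℤ × ℤ), Y.card = n ∧ (∀ t ∈ Y, 0 ≤ t.1 ∧ t.1 < T ∧ 0 ≤ t.2 ∧ t.2 < T) ∧
    ∀ a ∈ Y, ∀ b ∈ Y, ∀ c ∈ Y, a ≠ b → b ≠ c → a ≠ c →
      (p : ℤ) ≤ 4 * l ^ 2 * ((b.1 - a.1) * (c.2 - a.2) - (b.2 - a.2) * (c.1 - a.1)) ^ 2

/-- growth conditions used -/
theorem growth (m : ℕ) : ∀ᶠ l : ℕ in atTop, 2 ^ (m + 2) ≤ l ^ 2 ∧ 16 ≤ l ^ 5 ∧
    13068 * (1 + 4 * (5 * m + 31) * Real.log l) * (1 + (5 * m + 31) * Real.log l) ≤ (l:ℝ) ^ 3 ∧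
    528 * 36 ^ m * (1 + 4 * (5 * m + 31) * Real.log l) ≤ (l:ℝ) ^ (27 + m) := by
  have hc : ∀ C : ℝ, ∀ᶠ l : ℕ in atTop, C ≤ (l:ℝ) := fun C =>
    tendsto_natCast_atTop_atTop.eventually (eventually_ge_atTop C)
  have hlog : ∀ᶠ l : ℕ in atTop, Real.log l ≤ (l:ℝ) := by
    filter_upwards with l
    exact Real.log_le_self (by positivity)
  set A : ℝ := 1 + 4 * (5 * m + 31) with hA
  have hA1 : 1 ≤ A := by rw [hA]; nlinarith [(Nat.cast_nonneg m : (0:ℝ) ≤ m)]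
  filter_upwards [hc (2 ^ (m + 2)), hc 16, hc (13068 * A ^ 2), hc (528 * 36 ^ m * A), hlog,
    hc 1] with l h1 h2 h3 h4 h5 h6
  have hl0 : 0 ≤ Real.log l := Real.log_nonneg h6
  have hB1 : 1 + 4 * (5 * m + 31) * Real.log l ≤ A * l := by
    rw [hA]
    have : (0:ℝ) ≤ 4 * (5 * m + 31) := by positivity
    nlinarith [mul_le_mul_of_nonneg_left h5 this]
  have hB2 : 1 + (5 * m + 31) * Real.log l ≤ A * l := by
    refine le_trans ?_ hB1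
    have : (0:ℝ) ≤ (5 * m + 31) * Real.log l := by positivity
    linarith
  have hl1 : (1:ℝ) ≤ l := h6
  refine ⟨?_, ?_, ?_, ?_⟩
  · have : (2:ℝ) ^ (m + 2) ≤ (l:ℝ) ^ 2 := h1.trans (by nlinarith)
    exact_mod_cast this
  · have : (16:ℝ) ≤ (l:ℝ) ^ 5 := h2.trans (by
      calc (l:ℝ) = (l:ℝ) ^ 1 := by ring
        _ ≤ (l:ℝ) ^ 5 := pow_le_pow_right₀ hl1 (by norm_num))
    exact_mod_cast this
  · calc 13068 * (1 + 4 * (5 * m + 31) * Real.log l) * (1 + (5 * m + 31) * Real.log l)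
        ≤ 13068 * (A * l) * (A * l) := by gcongr
      _ = (13068 * A ^ 2) * (l:ℝ) ^ 2 := by ring
      _ ≤ (l:ℝ) * (l:ℝ) ^ 2 := by gcongr
      _ = (l:ℝ) ^ 3 := by ring
  · calc 528 * 36 ^ m * (1 + 4 * (5 * m + 31) * Real.log l) ≤ 528 * 36 ^ m * (A * l) := by gcongr
      _ = (528 * 36 ^ m * A) * l := by ring
      _ ≤ (l:ℝ) * l := by gcongr
      _ = (l:ℝ) ^ 2 := by ring
      _ ≤ (l:ℝ) ^ (27 + m) := pow_le_pow_right₀ hl1 (by omega)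

/-- S5: the choice of parameters -/
theorem params (m : ℕ) (hm : 1 ≤ m) (h : CoreS m) : ∃ l1 : ℕ, ∀ l : ℕ, l.Prime → l1 ≤ l →
    (l:ℝ) ^ (1 - 2 * (15 * (m:ℤ) + 95)) ≤ heilDelta (l ^ (15 * m + 95)) := by
  obtain ⟨l0, h⟩ := h
  obtain ⟨l2, hg⟩ := eventually_atTop.1 (growth m)
  refine ⟨max (max l0 l2) 2, fun l hl hl1 => ?_⟩
  obtain ⟨g1, g2, g3, g4⟩ := hg l (le_trans (le_trans (le_max_right _ _) (le_max_left _ _)) hl1)
  have hl0 : l0 ≤ l := le_trans (le_trans (le_max_left _ _) (le_max_left _ _)) hl1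
  have hlpos : 0 < l := hl.pos
  have hl1' : 1 ≤ l := hl.pos
  have hlr : (1:ℝ) ≤ l := by exact_mod_cast hl1'
  have hlr0 : (0:ℝ) < l := by linarith
  obtain ⟨a, ha⟩ : ∃ a : ℕ, a = 5 * m + 31 := ⟨_, rfl⟩
  have haR : (a:ℝ) = 5 * m + 31 := by rw [ha]; push_cast; ring
  have haL : (l ^ a : ℕ) / l = l ^ (a - 1) := by
    have : l ^ a = l * l ^ (a - 1) := by rw [← pow_succ']; congr 1; omega
    rw [this]; exact Nat.mul_div_cancel_left _ hlpos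
  have haL15 : 2 * l ^ a / l ^ 15 = 2 * l ^ (a - 15) := by
    have : 2 * l ^ a = l ^ 15 * (2 * l ^ (a - 15)) := by
      rw [show l ^ 15 * (2 * l ^ (a - 15)) = 2 * (l ^ 15 * l ^ (a - 15)) by ring, ← pow_add]
      congr 2; omega
    rw [this]; exact Nat.mul_div_cancel_left _ (by positivity)
  obtain ⟨p, hpp, hp1, hp2⟩ := Nat.exists_prime_lt_and_le_two_mul (l ^ (1 + 4 * a)) (by positivity)
  have hp1r : (l:ℝ) ^ (1 + 4 * a) ≤ p := by exact_mod_cast hp1.le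
  have hlogT : Real.log ((l ^ (4 * a) : ℕ) : ℝ) = 4 * (5 * m + 31) * Real.log l := by
    rw [Nat.cast_pow, Real.log_pow]; push_cast; rw [haR]
  have hlogM : Real.log ((l ^ a : ℕ) : ℝ) = (5 * m + 31) * Real.log l := by
    rw [Nat.cast_pow, Real.log_pow]; rw [haR]
  have hlogl : 0 ≤ Real.log l := Real.log_nonneg hlr
  have key := h l (l ^ a) (l ^ (4 * a)) (l ^ 106) (l ^ (15 * m + 95)) p hl hl0
    (dvd_pow_self l (by omega)) (Nat.pow_le_pow_right hlpos (by omega)) hpp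
    (by
      calc l * (l ^ a) ^ 4 = l ^ (1 + 4 * a) := by rw [← pow_mul, pow_add]; ring_nf
        _ < p := hp1)
    (Nat.one_le_iff_ne_zero.2 (by positivity))
    (lt_of_le_of_lt (Nat.pow_le_pow_right hlpos (by omega)) hp1)
    (by positivity)
    (by
      rw [haL]
      calc 2 * l ^ (15 * m + 95) * l ^ 106 * p ^ (m + 1) * l ^ 31
          ≤ 2 * l ^ (15 * m + 95) * l ^ 106 * (2 * l ^ (1 + 4 * a)) ^ (m + 1) * l ^ 31 := by gcongr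
        _ = 2 ^ (m + 2) * l ^ (15 * m + 95 + 106 + (1 + 4 * a) * (m + 1) + 31) := by
          rw [mul_pow, ← pow_mul]
          ring
        _ ≤ l ^ 2 * l ^ (15 * m + 95 + 106 + (1 + 4 * a) * (m + 1) + 31) := by gcongr
        _ = l ^ (2 * (4 * a) + 111 + (a - 1) * (4 * m)) := by
          rw [← pow_add]
          congr 1
          obtain ⟨b, rfl⟩ : ∃ b, a = b + 1 := ⟨a - 1, by omega⟩
          have hb : b = 5 * m + 30 := by omega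
          simp only [Nat.add_sub_cancel]
          rw [hb]; ring
        _ = (l ^ (4 * a)) ^ 2 * (l ^ 111 * (l ^ (a - 1)) ^ (4 * m)) := by
          rw [← pow_mul, ← pow_mul, ← pow_add, ← pow_add]
          congr 1; ring)
    (by
      rw [haL, hlogT, hlogM]
      push_cast
      have e1 : (l:ℝ) ^ 3 * ((l:ℝ) ^ (8 * a + 222 + (a - 1) * (12 * m - 6) + 4 * a + 31)) =
          (l:ℝ) ^ (212 + 111 + (a - 1) * (4 * m) + (1 + 4 * a) * (2 * m + 1)) := by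
        rw [← pow_add]
        congr 1
        obtain ⟨b, rfl⟩ : ∃ b, a = b + 1 := ⟨a - 1, by omega⟩
        obtain ⟨c, rfl⟩ : ∃ c, m = c + 1 := ⟨m - 1, by omega⟩
        have hb : b = 5 * c + 35 := by omega
        have h12 : 12 * (c + 1) - 6 = 12 * c + 6 := by omega
        simp only [Nat.add_sub_cancel]
        rw [hb, h12]; ring
      calc (132 : ℝ) * ((l:ℝ) ^ (4 * a)) ^ 2 * (1 + 4 * (5 * m + 31) * Real.log l) *
            (3 * (l:ℝ) ^ 222 * ((l:ℝ) ^ (a - 1)) ^ (12 * m - 6) *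
              (33 * ((l:ℝ) ^ a) ^ 4 * (1 + (5 * m + 31) * Real.log l))) * (l:ℝ) ^ 31
          = (13068 * (1 + 4 * (5 * m + 31) * Real.log l) * (1 + (5 * m + 31) * Real.log l)) *
            ((l:ℝ) ^ (8 * a + 222 + (a - 1) * (12 * m - 6) + 4 * a + 31)) := by
            rw [← pow_mul, ← pow_mul, ← pow_mul]
            simp only [pow_add]
            rw [show 4 * a * 2 = 8 * a by ring, show a * 4 = 4 * a by ring]
            ring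
        _ ≤ (l:ℝ) ^ 3 * ((l:ℝ) ^ (8 * a + 222 + (a - 1) * (12 * m - 6) + 4 * a + 31)) := by
            gcongr
        _ = (l:ℝ) ^ (212 + 111 + (a - 1) * (4 * m) + (1 + 4 * a) * (2 * m + 1)) := e1
        _ = ((l:ℝ) ^ 106) ^ 2 * ((l:ℝ) ^ 111 * ((l:ℝ) ^ (a - 1)) ^ (4 * m)) *
              ((l:ℝ) ^ (1 + 4 * a)) ^ (2 * m + 1) := by
            rw [← pow_mul, ← pow_mul, ← pow_mul, ← pow_add, ← pow_add, ← pow_add]
            congr 1; ring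
        _ ≤ ((l:ℝ) ^ 106) ^ 2 * ((l:ℝ) ^ 111 * ((l:ℝ) ^ (a - 1)) ^ (4 * m)) *
              (p:ℝ) ^ (2 * m + 1) := by gcongr)
    (by
      rw [haL15, hlogT]
      have e2 : (l:ℝ) ^ (27 + m) * ((l:ℝ) ^ ((2 * a - 15) * (2 * m) + 2 * a + 8 * a)) =
          (l:ℝ) ^ (212 + (1 + 4 * a) * (m + 1)) := by
        rw [← pow_add]
        congr 1
        obtain ⟨b, rfl⟩ : ∃ b, a = b + 15 := ⟨a - 15, by omega⟩
        have hb : b = 5 * m + 16 := by omega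
        have h15 : 2 * (b + 15) - 15 = 2 * b + 15 := by omega
        rw [h15, hb]; ring
      have e3 : ((2 * l ^ a * (2 * l ^ (a - 15) + 1) : ℕ) : ℝ) ≤ 6 * (l:ℝ) ^ (2 * a - 15) := by
        have h1 : (1:ℝ) ≤ (l:ℝ) ^ (a - 15) := one_le_pow₀ hlr
        push_cast
        calc 2 * (l:ℝ) ^ a * (2 * (l:ℝ) ^ (a - 15) + 1)
            ≤ 2 * (l:ℝ) ^ a * (2 * (l:ℝ) ^ (a - 15) + (l:ℝ) ^ (a - 15)) := by gcongr
          _ = 6 * ((l:ℝ) ^ a * (l:ℝ) ^ (a - 15)) := by ring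
          _ = 6 * (l:ℝ) ^ (2 * a - 15) := by
            rw [← pow_add]; congr 2; omega
      have e4 : 1 + 3 * ((2 * l ^ a * (2 * l ^ (a - 15) + 1) : ℕ) : ℝ) ^ (2 * m) *
          ((l ^ a : ℕ) : ℝ) ^ 2 ≤ 4 * 36 ^ m * (l:ℝ) ^ ((2 * a - 15) * (2 * m) + 2 * a) := by
        have h1 : (1:ℝ) ≤ 36 ^ m * (l:ℝ) ^ ((2 * a - 15) * (2 * m) + 2 * a) :=
          one_le_mul_of_one_le_of_one_le (one_le_pow₀ (by norm_num)) (one_le_pow₀ hlr)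
        calc 1 + 3 * ((2 * l ^ a * (2 * l ^ (a - 15) + 1) : ℕ) : ℝ) ^ (2 * m) *
              ((l ^ a : ℕ) : ℝ) ^ 2
            ≤ 36 ^ m * (l:ℝ) ^ ((2 * a - 15) * (2 * m) + 2 * a) +
              3 * (6 * (l:ℝ) ^ (2 * a - 15)) ^ (2 * m) * ((l ^ a : ℕ) : ℝ) ^ 2 := by
              gcongr
          _ = 4 * 36 ^ m * (l:ℝ) ^ ((2 * a - 15) * (2 * m) + 2 * a) := by
              have q1 : ((l ^ a : ℕ) : ℝ) ^ 2 = (l:ℝ) ^ (2 * a) := by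
                rw [Nat.cast_pow, ← pow_mul, mul_comm]
              have q2 : (6 * (l:ℝ) ^ (2 * a - 15)) ^ (2 * m) =
                  36 ^ m * (l:ℝ) ^ ((2 * a - 15) * (2 * m)) := by
                rw [mul_pow, ← pow_mul (l:ℝ), pow_mul 6 2 m]; norm_num
              rw [q1, q2, pow_add]
              ring
      calc 132 * (1 + 3 * ((2 * l ^ a * (2 * l ^ (a - 15) + 1) : ℕ) : ℝ) ^ (2 * m) *
            ((l ^ a : ℕ) : ℝ) ^ 2) * ((l ^ (4 * a) : ℕ) : ℝ) ^ 2 *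
            (1 + 4 * (5 * m + 31) * Real.log l)
          ≤ 132 * (4 * 36 ^ m * (l:ℝ) ^ ((2 * a - 15) * (2 * m) + 2 * a)) *
            ((l ^ (4 * a) : ℕ) : ℝ) ^ 2 * (1 + 4 * (5 * m + 31) * Real.log l) := by gcongr
        _ = (528 * 36 ^ m * (1 + 4 * (5 * m + 31) * Real.log l)) *
            ((l:ℝ) ^ ((2 * a - 15) * (2 * m) + 2 * a + 8 * a)) := by
            rw [Nat.cast_pow, pow_add (l:ℝ) ((2 * a - 15) * (2 * m) + 2 * a) (8 * a), ← pow_mul,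
              show 4 * a * 2 = 8 * a by ring]
            ring
        _ ≤ (l:ℝ) ^ (27 + m) * ((l:ℝ) ^ ((2 * a - 15) * (2 * m) + 2 * a + 8 * a)) := by gcongr
        _ = (l:ℝ) ^ (212 + (1 + 4 * a) * (m + 1)) := e2
        _ = ((l ^ 106 : ℕ) : ℝ) ^ 2 * ((l:ℝ) ^ (1 + 4 * a)) ^ (m + 1) := by
            rw [Nat.cast_pow, ← pow_mul, ← pow_mul, ← pow_add]
        _ ≤ ((l ^ 106 : ℕ) : ℝ) ^ 2 * (p:ℝ) ^ (m + 1) := by gcongr)
  obtain ⟨Y, hY1, hY2, hY3⟩ := key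
  have hn3 : 3 ≤ l ^ (15 * m + 95) := by
    calc 3 ≤ 2 ^ (15 * m + 95) := by
          calc 3 ≤ 2 ^ 2 := by norm_num
            _ ≤ 2 ^ (15 * m + 95) := Nat.pow_le_pow_right (by norm_num) (by omega)
      _ ≤ l ^ (15 * m + 95) := Nat.pow_le_pow_left hl.two_le _
  refine le_heilDelta_of_int hn3 (l ^ (4 * a)) (by positivity) Y hY1 hY2 ?_
  intro x hx y hy z hz hxy hyz hxz
  have h3 := hY3 x hx y hy z hz hxy hyz hxz
  generalize (y.1 - x.1) * (z.2 - x.2) - (y.2 - x.2) * (z.1 - x.1) = D at h3 ⊢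
  have h3' : (p:ℝ) ≤ 4 * (l:ℝ) ^ 2 * (D:ℝ) ^ 2 := by exact_mod_cast h3
  have h4 : (l:ℝ) ^ (1 + 4 * a) ≤ 4 * (l:ℝ) ^ 2 * (D:ℝ) ^ 2 := hp1r.trans h3'
  have h5 : (l:ℝ) ^ (1 - 2 * (15 * (m:ℤ) + 95)) * ((l ^ (4 * a) : ℕ) : ℝ) ^ 2 =
      (l:ℝ) ^ (2 * a - 3) := by
    rw [Nat.cast_pow, ← pow_mul, ← zpow_natCast, ← zpow_natCast, ← zpow_add₀ hlr0.ne']
    congr 1
    rw [ha]
    push_cast [show 3 ≤ 2 * (5 * m + 31) by omega]
    ring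
  rw [h5, Int.cast_abs]
  have h6 : (2 * (l:ℝ) ^ (2 * a - 3)) ^ 2 ≤ |(D:ℝ)| ^ 2 := by
    rw [sq_abs]
    have h7 : (16:ℝ) ≤ (l:ℝ) ^ 5 := by exact_mod_cast g2
    have h8 : (l:ℝ) ^ (1 + 4 * a) = (l:ℝ) ^ 5 * (l:ℝ) ^ 2 * ((l:ℝ) ^ (2 * a - 3)) ^ 2 := by
      rw [← pow_mul, ← pow_add, ← pow_add]
      congr 1; omega
    rw [h8] at h4
    have hl2 : (0:ℝ) < (l:ℝ) ^ 2 := by positivity
    have h9 : (l:ℝ) ^ 5 * ((l:ℝ) ^ (2 * a - 3)) ^ 2 ≤ 4 * (D:ℝ) ^ 2 := by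
      have : (l:ℝ) ^ 2 * ((l:ℝ) ^ 5 * ((l:ℝ) ^ (2 * a - 3)) ^ 2) ≤
          (l:ℝ) ^ 2 * (4 * (D:ℝ) ^ 2) := by linarith
      exact le_of_mul_le_mul_left this hl2
    have h10 : 16 * ((l:ℝ) ^ (2 * a - 3)) ^ 2 ≤ (l:ℝ) ^ 5 * ((l:ℝ) ^ (2 * a - 3)) ^ 2 := by
      gcongr
    nlinarith
  have h11 := (pow_le_pow_iff_left₀ (by positivity) (abs_nonneg _) (by norm_num)).1 h6
  linarith

end Vale.Agent.P036.S
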