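import Mathlib
import Vale.Agent.P036.S.Par

/-!
Blueprint S, block S6: monotonicity of `Δ`, all `n`, and the negation of Q1.
-/

namespace Vale.Agent.P036.S
open Finset Filter Real Vale.Agent.P036.LB

theorem exists_square_set (n : ℕ) : ∃ P : Finset (EuclideanSpace ℝ (Fin 2)), P.card = n ∧
    ∀ p ∈ P, ∀ i, 0 ≤ p i ∧ p i ≤ 1 := by
  classical
  let f : ℕ → EuclideanSpace ℝ (Fin 2) := fun k => !₂[(1:ℝ) / (k + 1), 0]
  have hinj : Function.Injective f := by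
    intro a b hab
    have h0 : (1:ℝ) / (a + 1) = 1 / (b + 1) := by
      have := congrArg (fun v : EuclideanSpace ℝ (Fin 2) => v 0) hab
      simpa [f] using this
    have ha : (0:ℝ) < a + 1 := by positivity
    have hb : (0:ℝ) < b + 1 := by positivity
    rw [div_eq_div_iff ha.ne' hb.ne'] at h0
    have : (a:ℝ) = b := by linarith
    exact_mod_cast this
  refine ⟨(range n).image f, by rw [card_image_of_injective _ hinj, card_range], ?_⟩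
  intro p hp i
  obtain ⟨k, -, rfl⟩ := mem_image.1 hp
  have hk : (0:ℝ) < k + 1 := by positivity
  fin_cases i
  · simp only [f, Fin.zero_eta, Matrix.cons_val_zero]
    refine ⟨by positivity, ?_⟩
    rw [div_le_one hk]
    have : (0:ℝ) ≤ k := by positivity
    linarith
  · simp [f]

theorem heilDelta_anti {m n : ℕ} (h3 : 3 ≤ m) (hmn : m ≤ n) : heilDelta n ≤ heilDelta m := by
  classical
  unfold heilDelta
  obtain ⟨P0, hP0, hP0'⟩ := exists_square_set n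
  refine csSup_le ⟨mArea P0, P0, hP0, hP0', rfl⟩ ?_
  rintro _ ⟨P, hP, hP', rfl⟩
  obtain ⟨Q, hQP, hQ⟩ := exists_subset_card_eq (show m ≤ P.card by omega)
  have hb : BddAbove {a : ℝ | ∃ P : Finset (EuclideanSpace ℝ (Fin 2)), P.card = m ∧
      (∀ p ∈ P, ∀ i, 0 ≤ p i ∧ p i ≤ 1) ∧ a = mArea P} := by
    refine ⟨1, ?_⟩
    rintro a ⟨P, h1, h2, rfl⟩
    exact mArea_le_one P (by omega) h2
  refine le_trans ?_ (le_csSup hb ⟨Q, hQ, fun p hp => hP' p (hQP hp), rfl⟩)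
  unfold mArea
  obtain ⟨p, q, r, hp, hq, hr, hpq, hpr, hqr⟩ := two_lt_card_iff.1 (show 2 < Q.card by omega)
  refine csInf_le_csInf ⟨0, ?_⟩ ⟨_, p, hp, q, hq, r, hr, hpq, hqr, hpr, rfl⟩ ?_
  · rintro A ⟨p, -, q, -, r, -, -, -, -, rfl⟩
    exact tArea_nonneg p q r
  · rintro A ⟨p, hp, q, hq, r, hr, h1, h2, h3, rfl⟩
    exact ⟨p, hQP hp, q, hQP hq, r, hQP hr, h1, h2, h3, rfl⟩

/-- from prime powers to all `n` -/
theorem all_n (e : ℕ) (he : 1 ≤ e) (l1 : ℕ) (h : ∀ l : ℕ, l.Prime → l1 ≤ l →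
    (l:ℝ) ^ (1 - 2 * (e:ℤ)) ≤ heilDelta (l ^ e)) :
    ∃ n₀ : ℕ, ∀ n : ℕ, n₀ ≤ n → (n:ℝ) ^ (-2 + 1 / (2 * (e:ℝ))) ≤ heilDelta n := by
  have heR : (1:ℝ) ≤ e := by exact_mod_cast he
  have he0 : (0:ℝ) < e := by linarith
  have t1 : Tendsto (fun n : ℕ => (n:ℝ) ^ (1 / (e:ℝ))) atTop atTop :=
    (tendsto_rpow_atTop (by positivity)).comp tendsto_natCast_atTop_atTop
  have t2 : Tendsto (fun n : ℕ => (n:ℝ) ^ (1 / (2 * (e:ℝ)))) atTop atTop :=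
    (tendsto_rpow_atTop (by positivity)).comp tendsto_natCast_atTop_atTop
  obtain ⟨n₀, hn₀⟩ := eventually_atTop.1 ((t1.eventually (eventually_ge_atTop ((l1:ℝ) + 1))).and
    (t2.eventually (eventually_ge_atTop ((4:ℝ) ^ (2 * e)))))
  refine ⟨max n₀ 3, fun n hn => ?_⟩
  obtain ⟨h1, h2⟩ := hn₀ n (le_trans (le_max_left _ _) hn)
  have hn3 : 3 ≤ n := le_trans (le_max_right _ _) hn
  have hnR : (0:ℝ) < n := by
    have : 0 < n := by omega
    exact_mod_cast this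
  obtain ⟨x, hx⟩ : ∃ x : ℝ, x = (n:ℝ) ^ (1 / (e:ℝ)) := ⟨_, rfl⟩
  have hx1 : 1 ≤ x := by
    rw [hx]
    have : (0:ℝ) ≤ l1 := by positivity
    linarith
  have hx0 : 0 < x := by linarith
  have hxe : x ^ e = n := by
    rw [hx, ← Real.rpow_natCast, ← Real.rpow_mul hnR.le]
    rw [show 1 / (e:ℝ) * (e:ℝ) = 1 by field_simp, Real.rpow_one]
  set r := ⌈x⌉₊ with hr
  have hr1 : x ≤ r := Nat.le_ceil x
  have hr2 : (r:ℝ) < x + 1 := Nat.ceil_lt_add_one hx0.le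
  have hr0 : r ≠ 0 := by
    have : (0:ℝ) < r := by linarith
    exact_mod_cast this.ne'
  obtain ⟨l, hl, hl1, hl2⟩ := Nat.exists_prime_lt_and_le_two_mul r hr0
  have hrl : (r:ℝ) < l := by exact_mod_cast hl1
  have hl1' : l1 ≤ l := by
    have : (l1:ℝ) ≤ l := by
      rw [← hx] at h1
      linarith
    exact_mod_cast this
  have hl4 : (l:ℝ) ≤ 4 * x := by
    have : (l:ℝ) ≤ 2 * r := by exact_mod_cast hl2
    linarith
  have hl0 : (0:ℝ) < l := by linarith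
  have hnle : n ≤ l ^ e := by
    have : (n:ℝ) ≤ (l:ℝ) ^ e := by
      rw [← hxe]
      exact pow_le_pow_left₀ hx0.le (by linarith) _
    exact_mod_cast this
  refine le_trans ?_ (heilDelta_anti hn3 hnle)
  refine le_trans ?_ (h l hl hl1')
  have e1 : (l:ℝ) ^ (1 - 2 * (e:ℤ)) = ((l:ℝ) ^ (2 * e - 1))⁻¹ := by
    rw [← zpow_natCast, ← zpow_neg]
    congr 1
    push_cast [show 1 ≤ 2 * e by omega]
    ring
  have e2 : (n:ℝ) ^ (-2 + 1 / (2 * (e:ℝ))) = (n:ℝ) ^ (1 / (2 * (e:ℝ))) * ((n:ℝ) ^ 2)⁻¹ := by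
    rw [← Real.rpow_natCast (n:ℝ) 2, ← Real.rpow_neg hnR.le, ← Real.rpow_add hnR]
    congr 1
    push_cast
    ring
  have e3 : x = (n:ℝ) ^ (1 / (2 * (e:ℝ))) * (n:ℝ) ^ (1 / (2 * (e:ℝ))) := by
    rw [hx, ← Real.rpow_add hnR]
    congr 1
    field_simp
    norm_num
  obtain ⟨y, hy⟩ : ∃ y : ℝ, y = (n:ℝ) ^ (1 / (2 * (e:ℝ))) := ⟨_, rfl⟩
  rw [← hy] at h2 e2 e3
  have hy0 : 0 < y := by rw [hy]; positivity
  rw [e1, e2, ← div_eq_mul_inv, div_le_iff₀ (by positivity)]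
  rw [inv_mul_eq_div, le_div_iff₀ (by positivity)]
  -- y * l^(2e-1) ≤ n^2
  have e4 : (n:ℝ) ^ 2 = x ^ (2 * e - 1) * x := by
    rw [← hxe, ← pow_mul, ← pow_succ]
    congr 1; omega
  rw [e4]
  calc y * (l:ℝ) ^ (2 * e - 1) ≤ y * (4 * x) ^ (2 * e - 1) := by gcongr
    _ = x ^ (2 * e - 1) * (y * 4 ^ (2 * e - 1)) := by rw [mul_pow]; ring
    _ ≤ x ^ (2 * e - 1) * (y * 4 ^ (2 * e)) := by
        gcongr
        · norm_num
        · omega
    _ ≤ x ^ (2 * e - 1) * (y * y) := by gcongr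
    _ = x ^ (2 * e - 1) * x := by rw [← e3]

/-- Blueprint S: the final theorem from the core -/
theorem final_of_core (m : ℕ) (hm : 1 ≤ m) (h : CoreS m) :
    ∃ c : ℝ, 0 < c ∧ ∃ n₀ : ℕ, ∀ n : ℕ, n₀ ≤ n → (n:ℝ) ^ (-2 + c) ≤ heilDelta n := by
  obtain ⟨l1, h1⟩ := params m hm h
  obtain ⟨n₀, hn₀⟩ := all_n (15 * m + 95) (by omega) l1 (by
    intro l hl hl1
    have := h1 l hl hl1
    push_cast
    exact this)
  exact ⟨1 / (2 * ((15 * m + 95 : ℕ) : ℝ)), by positivity, n₀, hn₀⟩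

/-- the negation of Q1 from the core -/
theorem not_Q1_of_core (m : ℕ) (hm : 1 ≤ m) (h : CoreS m) :
    ¬ (∀ ε : ℝ, 0 < ε → ∃ C : ℝ, ∃ n₀ : ℕ, ∀ n : ℕ, n₀ ≤ n →
      heilDelta n ≤ C * (n:ℝ) ^ (-2 + ε)) := by
  obtain ⟨c, hc, n₀, h⟩ := final_of_core m hm h
  exact not_Q1_of_power c hc fun N => ⟨max N n₀, le_max_left _ _, h _ (le_max_right _ _)⟩

end Vale.Agent.P036.S
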