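import Mathlib
import Vale.Agent.P036.QF.Arith

/-!
# P036, route S, block S3: shells and collinear triples

* `exists_shell`: pigeonhole, a popular thin shell of the first embedding;
* `shell_collinear`: the number of triples of distinct `O`-collinear points of a box lying in one
  thin shell.
-/

namespace Vale.Agent.P036.S

open Finset Vale.Agent.P036.QF

/-- the point `x` lies in the box `[0, M)` -/
def InBox {ι : Type*} {D : ℤ} (M : ℕ) (x : ι → ℤ√D) : Prop :=
  ∀ i, 0 ≤ (x i).re ∧ (x i).re < M ∧ 0 ≤ (x i).im ∧ (x i).im < M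

/-- squared length of the first embedding -/
noncomputable def sq1 {ι : Type*} [Fintype ι] {D : ℤ} (x : ι → ℤ√D) : ℝ := ∑ i, s1 D (x i) ^ 2

/-- the `R`-th shell of thickness `s ^ 2` -/
def InShell {ι : Type*} [Fintype ι] {D : ℤ} (s R : ℕ) (x : ι → ℤ√D) : Prop :=
  (R : ℝ) * s ^ 2 ≤ sq1 x ∧ sq1 x < ((R : ℝ) + 1) * s ^ 2

/-- the minors of `y - x`, `z - x` vanish -/
def Col {ι : Type*} {D : ℤ} (x y z : ι → ℤ√D) : Prop :=
  ∀ i j, (y i - x i) * (z j - x j) = (y j - x j) * (z i - x i)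

theorem s1_sq_le {D : ℤ} (hD : Good D) (M : ℕ) (x : ℤ√D) (h1 : 0 ≤ x.re) (h2 : x.re < M)
    (h3 : 0 ≤ x.im) (h4 : x.im < M) : s1 D x ^ 2 ≤ 13 * (M : ℝ) ^ 2 := by
  have h := abs_s1_le hD.le_six x
  have e1 : |(x.re : ℝ)| ≤ M := by
    rw [abs_of_nonneg (by exact_mod_cast h1)]; exact_mod_cast h2.le
  have e2 : |(x.im : ℝ)| ≤ M := by
    rw [abs_of_nonneg (by exact_mod_cast h3)]; exact_mod_cast h4.le
  have e3 : |s1 D x| ≤ 7 / 2 * M := by linarith
  have e4 := sq_abs (s1 D x)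
  have e5 := abs_nonneg (s1 D x)
  nlinarith

theorem sq1_nonneg {ι : Type*} [Fintype ι] {D : ℤ} (x : ι → ℤ√D) : 0 ≤ sq1 x :=
  Finset.sum_nonneg fun _ _ => sq_nonneg _

theorem exists_shell {α ι : Type*} [Fintype ι] {D : ℤ} (hD : Good D) (M s : ℕ) (hs : 0 < s)
    (B : Finset α) (z : α → ι → ℤ√D) (hz : ∀ a ∈ B, InBox M (z a)) :
    ∃ R : ℕ, ∃ X ⊆ B, (∀ a ∈ X, InShell s R (z a)) ∧
      B.card ≤ (13 * Fintype.card ι * M ^ 2 / s ^ 2 + 1) * X.card := by
  classical
  set N := 13 * Fintype.card ι * M ^ 2 / s ^ 2 + 1 with hN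
  by_contra hcon
  have hcon' : ∀ R : ℕ, N * (B.filter fun a => InShell s R (z a)).card < B.card := by
    intro R
    by_contra hR
    exact hcon ⟨R, B.filter fun a => InShell s R (z a), filter_subset _ _,
      fun a ha => (mem_filter.1 ha).2, not_lt.1 hR⟩
  -- each point lies in a shell with index `< N`
  have hcov : B.card ≤ ∑ R ∈ range N, (B.filter fun a => InShell s R (z a)).card := by
    have hsub : B ⊆ (range N).biUnion fun R => B.filter fun a => InShell s R (z a) := by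
      intro a ha
      have hsR : (0 : ℝ) < (s : ℝ) ^ 2 := by positivity
      have hq : sq1 (z a) ≤ ((13 * Fintype.card ι * M ^ 2 : ℕ) : ℝ) := by
        calc sq1 (z a) ≤ ∑ _i : ι, 13 * (M : ℝ) ^ 2 := by
              apply Finset.sum_le_sum
              intro i _
              obtain ⟨h1, h2, h3, h4⟩ := hz a ha i
              exact s1_sq_le hD M _ h1 h2 h3 h4
          _ = _ := by
            rw [Finset.sum_const, Finset.card_univ, nsmul_eq_mul]; push_cast; ring
      refine mem_biUnion.2 ⟨⌊sq1 (z a) / (s : ℝ) ^ 2⌋₊, ?_, ?_⟩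
      · rw [mem_range, hN, Nat.lt_succ_iff]
        have h1 : ⌊sq1 (z a) / (s : ℝ) ^ 2⌋₊ ≤
            ⌊((13 * Fintype.card ι * M ^ 2 : ℕ) : ℝ) / ((s ^ 2 : ℕ) : ℝ)⌋₊ := by
          apply Nat.floor_le_floor
          push_cast
          push_cast at hq
          gcongr
        rwa [Nat.floor_div_eq_div] at h1
      · rw [mem_filter]
        refine ⟨ha, ?_, ?_⟩
        · rw [← le_div_iff₀ hsR]
          exact Nat.floor_le (div_nonneg (sq1_nonneg _) hsR.le)
        · rw [← div_lt_iff₀ hsR]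
          exact Nat.lt_floor_add_one _
    exact (card_le_card hsub).trans card_biUnion_le
  have h2 : N * B.card ≤ ∑ R ∈ range N, N * (B.filter fun a => InShell s R (z a)).card := by
    rw [← Finset.mul_sum]
    exact Nat.mul_le_mul_left _ hcov
  have h3 : ∑ R ∈ range N, N * (B.filter fun a => InShell s R (z a)).card <
      ∑ _R ∈ range N, B.card :=
    Finset.sum_lt_sum_of_nonempty ⟨0, by simp [hN]⟩ fun R _ => hcon' R
  rw [Finset.sum_const, card_range, smul_eq_mul] at h3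
  omega

/-! ### collinear points -/

theorem Col.swap {ι : Type*} {D : ℤ} {x y z : ι → ℤ√D} (h : Col x y z) : Col x z y := by
  intro i j
  linear_combination - h i j

theorem Col.rot {ι : Type*} {D : ℤ} {x y z : ι → ℤ√D} (h : Col x y z) : Col y z x := by
  intro i j
  linear_combination h i j

/-- three points on a line in a thin shell: two of them are close -/
theorem three_pt {t a b L w qx qy qz : ℝ} (ha : 0 < a) (ht0 : t ≠ 0) (ht1 : t ≠ 1)
    (hqy : qy = qx + 2 * b + a) (hqz : qz = qx + 2 * t * b + t ^ 2 * a)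
    (hx1 : L ≤ qx) (hx2 : qx < L + w) (hy1 : L ≤ qy) (hy2 : qy < L + w) (hz1 : L ≤ qz)
    (hz2 : qz < L + w) : a < w ∨ t ^ 2 * a < w ∨ (t - 1) ^ 2 * a < w := by
  rcases lt_or_gt_of_ne ht0 with hneg | hpos
  · have key : (-t) * a < w := by
      have e : (1 - t) * qx = qz + (-t) * qy - (-t) * (1 - t) * a := by
        rw [hqy, hqz]; ring
      have h0 : (-t) * qy ≤ (-t) * (L + w) := mul_le_mul_of_nonneg_left hy2.le (by linarith)
      have h2 : (1 - t) * L ≤ (1 - t) * qx := mul_le_mul_of_nonneg_left hx1 (by linarith)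
      have h3 : (1 - t) * ((-t) * a) < (1 - t) * w := by
        have : (1 - t) * ((-t) * a) = qz + (-t) * qy - (1 - t) * qx := by rw [e]; ring
        rw [this]
        have h5 : (1 - t) * w = (L + w) + (-t) * (L + w) - (1 - t) * L := by ring
        rw [h5]; linarith
      exact lt_of_mul_lt_mul_left h3 (by linarith)
    by_cases h1 : -1 ≤ t
    · right; left
      have : t ^ 2 * a ≤ (-t) * a := by
        apply mul_le_mul_of_nonneg_right _ ha.le; nlinarith
      linarith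
    · left
      have : 1 * a ≤ (-t) * a := mul_le_mul_of_nonneg_right (by linarith) ha.le
      linarith
  · rcases lt_or_gt_of_ne ht1 with hlt | hgt
    · have key : t * (1 - t) * a < w := by
        have e : t * (1 - t) * a = (1 - t) * qx + t * qy - qz := by
          rw [hqy, hqz]; ring
        have h0 : (1 - t) * qx < (1 - t) * (L + w) := mul_lt_mul_of_pos_left hx2 (by linarith)
        have h1 : t * qy < t * (L + w) := mul_lt_mul_of_pos_left hy2 hpos
        rw [e]
        have h5 : w = (1 - t) * (L + w) + t * (L + w) - L := by ring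
        rw [h5]; linarith
      by_cases h1 : t ≤ 1 / 2
      · right; left
        have : t ^ 2 * a ≤ t * (1 - t) * a := by
          apply mul_le_mul_of_nonneg_right _ ha.le; nlinarith
        linarith
      · right; right
        have : (t - 1) ^ 2 * a ≤ t * (1 - t) * a := by
          apply mul_le_mul_of_nonneg_right _ ha.le; nlinarith
        linarith
    · have key : (t - 1) * a < w := by
        have e : t * ((t - 1) * a) = (t - 1) * qx + qz - t * qy := by
          rw [hqy, hqz]; ring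
        have h0 : (t - 1) * qx ≤ (t - 1) * (L + w) :=
          mul_le_mul_of_nonneg_left hx2.le (by linarith)
        have h2 : t * L ≤ t * qy := mul_le_mul_of_nonneg_left hy1 hpos.le
        have h3 : t * ((t - 1) * a) < t * w := by
          rw [e]
          have h5 : t * w = (t - 1) * (L + w) + (L + w) - t * L := by ring
          rw [h5]; linarith
        exact lt_of_mul_lt_mul_left h3 hpos.le
      by_cases h1 : t ≤ 2
      · right; right
        have : (t - 1) ^ 2 * a ≤ (t - 1) * a := by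
          apply mul_le_mul_of_nonneg_right _ ha.le; nlinarith
        linarith
      · left
        have : 1 * a ≤ (t - 1) * a := mul_le_mul_of_nonneg_right (by linarith) ha.le
        linarith

/-- one of the three differences is short -/
theorem short {ι : Type*} [Fintype ι] {D : ℤ} (hD : Good D) {s R : ℕ} {x y z : ι → ℤ√D}
    (hx : InShell s R x) (hy : InShell s R y) (hz : InShell s R z) (hxy : x ≠ y) (hyz : y ≠ z)
    (hxz : x ≠ z) (h : Col x y z) :
    (∑ i, s1 D (y i - x i) ^ 2 < s ^ 2) ∨ (∑ i, s1 D (z i - x i) ^ 2 < s ^ 2) ∨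
      (∑ i, s1 D (z i - y i) ^ 2 < s ^ 2) := by
  have h0 : 0 ≤ D := hD.pos.le
  -- `z - x = t (y - x)` in the first embedding
  obtain ⟨i0, hi0⟩ := Function.ne_iff.1 hxy
  have hu0 : y i0 - x i0 ≠ 0 := sub_ne_zero.2 (Ne.symm hi0)
  have hs0 : s1 D (y i0 - x i0) ≠ 0 := s1_ne_zero hD hu0
  set t : ℝ := s1 D (z i0 - x i0) / s1 D (y i0 - x i0) with ht
  have hv : ∀ j, s1 D (z j - x j) = t * s1 D (y j - x j) := by
    intro j
    have e := congrArg (s1 D) (h i0 j)
    rw [s1_mul h0, s1_mul h0] at e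
    rw [ht, div_mul_eq_mul_div, eq_div_iff hs0]
    linear_combination e
  set a : ℝ := ∑ i, s1 D (y i - x i) ^ 2 with ha
  have hapos : 0 < a := by
    apply Finset.sum_pos' (fun i _ => sq_nonneg _) ⟨i0, mem_univ _, by positivity⟩
  have haz : ∑ i, s1 D (z i - x i) ^ 2 = t ^ 2 * a := by
    rw [ha, Finset.mul_sum]
    exact Finset.sum_congr rfl fun j _ => by rw [hv j]; ring
  have hazy : ∑ i, s1 D (z i - y i) ^ 2 = (t - 1) ^ 2 * a := by
    rw [ha, Finset.mul_sum]
    refine Finset.sum_congr rfl fun j _ => ?_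
    have e : z j - y j = (z j - x j) - (y j - x j) := by ring
    rw [e, s1_sub, hv j]; ring
  -- the quadratic function along the line
  set b : ℝ := ∑ i, s1 D (x i) * s1 D (y i - x i) with hb
  have hqy : sq1 y = sq1 x + 2 * b + a := by
    rw [sq1, sq1, hb, ha, Finset.mul_sum, ← Finset.sum_add_distrib, ← Finset.sum_add_distrib]
    refine Finset.sum_congr rfl fun j _ => ?_
    rw [s1_sub]; ring
  have hqz : sq1 z = sq1 x + 2 * t * b + t ^ 2 * a := by
    rw [sq1, sq1, hb, ha, Finset.mul_sum, Finset.mul_sum, ← Finset.sum_add_distrib,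
      ← Finset.sum_add_distrib]
    refine Finset.sum_congr rfl fun j _ => ?_
    have e : s1 D (z j) = s1 D (x j) + t * s1 D (y j - x j) := by
      rw [← hv j, s1_sub]; ring
    rw [e]; ring
  have ht0 : t ≠ 0 := by
    intro h0t
    obtain ⟨j, hj⟩ := Function.ne_iff.1 hxz
    have := hv j
    rw [h0t, zero_mul] at this
    exact s1_ne_zero hD (sub_ne_zero.2 (Ne.symm hj)) this
  have ht1 : t ≠ 1 := by
    intro h1t
    obtain ⟨j, hj⟩ := Function.ne_iff.1 hyz
    have := hv j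
    rw [h1t, one_mul] at this
    have e : s1 D (z j - y j) = 0 := by
      have e : z j - y j = (z j - x j) - (y j - x j) := by ring
      rw [e, s1_sub, this, sub_self]
    exact s1_ne_zero hD (sub_ne_zero.2 (Ne.symm hj)) e
  obtain ⟨hx1, hx2⟩ := hx
  obtain ⟨hy1, hy2⟩ := hy
  obtain ⟨hz1, hz2⟩ := hz
  have hL' : ((R : ℝ) + 1) * s ^ 2 = (R : ℝ) * s ^ 2 + s ^ 2 := by ring
  rw [hL'] at hx2 hy2 hz2
  rw [haz, hazy]
  exact three_pt hapos ht0 ht1 hqy hqz hx1 hx2 hy1 hy2 hz1 hz2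

/-! ### counting -/

/-- short vectors of the box, one coordinate -/
noncomputable def shortSet (D : ℤ) (M s : ℕ) : Finset (ℤ√D) := by
  classical
  exact (((Icc (-(M : ℤ)) M).biUnion fun b =>
    (Icc ⌈-(b * √(D : ℝ)) - s⌉ ⌊-(b * √(D : ℝ)) + s⌋).image fun a => (⟨a, b⟩ : ℤ√D)))

theorem card_shortSet_le (D : ℤ) (M s : ℕ) :
    (shortSet D M s).card ≤ (2 * M + 1) * (2 * s + 1) := by
  classical
  unfold shortSet
  refine card_biUnion_le.trans ?_
  have h : ∀ b ∈ Icc (-(M : ℤ)) M, ((Icc ⌈-(b * √(D : ℝ)) - s⌉ ⌊-(b * √(D : ℝ)) + s⌋).image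
      fun a => (⟨a, b⟩ : ℤ√D)).card ≤ 2 * s + 1 := by
    intro b _
    refine card_image_le.trans ?_
    rw [Int.card_Icc]
    set c : ℝ := -(b * √(D : ℝ))
    have h1 : ⌊c + s⌋ ≤ ⌈c - s⌉ + 2 * s := by
      have h2 : (⌊c + s⌋ : ℝ) ≤ c + s := Int.floor_le _
      have h3 : c - s ≤ ⌈c - s⌉ := Int.le_ceil _
      have h4 : (⌊c + s⌋ : ℝ) ≤ ⌈c - s⌉ + 2 * s := by linarith
      exact_mod_cast h4
    omega
  refine (Finset.sum_le_card_nsmul _ _ _ h).trans ?_
  rw [Int.card_Icc, smul_eq_mul]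
  apply Nat.mul_le_mul_right
  omega

theorem mem_shortSet {D : ℤ} {M s : ℕ} {x : ℤ√D} (h1 : -(M : ℤ) ≤ x.im) (h2 : x.im ≤ M)
    (h : |s1 D x| ≤ s) : x ∈ shortSet D M s := by
  classical
  unfold shortSet
  refine mem_biUnion.2 ⟨x.im, mem_Icc.2 ⟨h1, h2⟩, mem_image.2 ⟨x.re, ?_, rfl⟩⟩
  rw [abs_le, s1] at h
  rw [mem_Icc, Int.ceil_le, Int.le_floor]
  constructor <;> linarith [h.1, h.2]

/-- the main count: triples with a short first difference -/
theorem card_short_col {ι : Type*} [Fintype ι] [DecidableEq ι] {D : ℤ} (hD : Good D) (M s : ℕ)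
    (X : Finset (ι → ℤ√D)) (hX : ∀ x ∈ X, InBox M x) (Q : Finset ((ι → ℤ√D) × (ι → ℤ√D) × (ι → ℤ√D)))
    (hQ : ∀ t ∈ Q, t.1 ∈ X ∧ t.2.1 ∈ X ∧ t.2.2 ∈ X ∧ t.1 ≠ t.2.1 ∧
      (∑ i, s1 D (t.2.1 i - t.1 i) ^ 2 < s ^ 2) ∧ Col t.1 t.2.1 t.2.2) :
    Q.card ≤ X.card * ((2 * M + 1) * (2 * s + 1)) ^ Fintype.card ι * M ^ 2 := by
  classical
  -- the pairs
  set P : Finset ((ι → ℤ√D) × (ι → ℤ√D)) := Q.image fun t => (t.1, t.2.1) with hP
  have hPcard : P.card ≤ X.card * ((2 * M + 1) * (2 * s + 1)) ^ Fintype.card ι := by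
    rw [mul_comm]
    refine card_le_mul_card_image_of_maps_to (f := Prod.fst) (t := X) ?_ _ ?_
    · intro q hq
      obtain ⟨t, ht, rfl⟩ := mem_image.1 hq
      exact (hQ t ht).1
    · intro x _
      have hinj : Set.InjOn (fun q : (ι → ℤ√D) × (ι → ℤ√D) => q.2 - q.1)
          ((P.filter fun q => q.1 = x : Finset _) : Set _) := by
        intro q hq q' hq' e
        have h1 := (mem_filter.1 (mem_coe.1 hq)).2
        have h2 := (mem_filter.1 (mem_coe.1 hq')).2
        simp only at e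
        rw [h1, h2] at e
        exact Prod.ext (h1.trans h2.symm) (sub_left_inj.1 e)
      rw [← card_image_of_injOn hinj]
      calc _ ≤ (Fintype.piFinset fun _ : ι => shortSet D M s).card := by
            apply card_le_card
            intro u hu
            obtain ⟨q, hq, rfl⟩ := mem_image.1 hu
            obtain ⟨t, ht, rfl⟩ := mem_image.1 (mem_filter.1 hq).1
            obtain ⟨hx, hy, _, _, hs, _⟩ := hQ t ht
            rw [Fintype.mem_piFinset]
            intro i
            obtain ⟨_, _, a3, a4⟩ := hX _ hx i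
            obtain ⟨_, _, b3, b4⟩ := hX _ hy i
            apply mem_shortSet
            · simp only [Pi.sub_apply, Zsqrtd.im_sub]; omega
            · simp only [Pi.sub_apply, Zsqrtd.im_sub]; omega
            · have h1 : s1 D (t.2.1 i - t.1 i) ^ 2 ≤ (s : ℝ) ^ 2 :=
                (Finset.single_le_sum (f := fun i => s1 D (t.2.1 i - t.1 i) ^ 2)
                  (fun i _ => sq_nonneg _) (mem_univ i)).trans hs.le
              exact abs_le_of_sq_le_sq h1 (by positivity)
        _ = (shortSet D M s).card ^ Fintype.card ι := by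
            rw [Fintype.card_piFinset]; simp
        _ ≤ _ := Nat.pow_le_pow_left (card_shortSet_le D M s) _
  -- the third point
  refine le_trans ?_ (Nat.mul_le_mul_right (M ^ 2) hPcard)
  rw [mul_comm]
  refine card_le_mul_card_image _ _ ?_
  intro q hq
  obtain ⟨t0, ht0, rfl⟩ := mem_image.1 hq
  obtain ⟨_, _, _, hne, _, _⟩ := hQ t0 ht0
  obtain ⟨i0, hi0⟩ := Function.ne_iff.1 hne
  have hinj : Set.InjOn (fun t : (ι → ℤ√D) × (ι → ℤ√D) × (ι → ℤ√D) =>
      ((t.2.2 i0).re, (t.2.2 i0).im))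
      ((Q.filter fun t => (t.1, t.2.1) = (t0.1, t0.2.1) : Finset _) : Set _) := by
    intro t ht t' ht' e
    obtain ⟨hm, he⟩ := mem_filter.1 (mem_coe.1 ht)
    obtain ⟨hm', he'⟩ := mem_filter.1 (mem_coe.1 ht')
    have e1 : t.2.2 i0 = t'.2.2 i0 := by
      have := Prod.ext_iff.1 e
      exact Zsqrtd.ext this.1 this.2
    have hc := (hQ t hm).2.2.2.2.2
    have hc' := (hQ t' hm').2.2.2.2.2
    rw [Prod.ext_iff] at he he'
    simp only at he he'
    rw [he.1, he.2] at hc
    rw [he'.1, he'.2] at hc'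
    have hu : t0.2.1 i0 - t0.1 i0 ≠ 0 := sub_ne_zero.2 (Ne.symm hi0)
    have e2 : t.2.2 = t'.2.2 := by
      funext j
      have k1 := hc i0 j
      have k2 := hc' i0 j
      rw [e1] at k1
      have k3 : (t0.2.1 i0 - t0.1 i0) * (t.2.2 j - t0.1 j) =
        (t0.2.1 i0 - t0.1 i0) * (t'.2.2 j - t0.1 j) := k1.trans k2.symm
      have hns : ∀ n : ℤ, D ≠ n * n := hD.nonsquare
      have k4 : (t0.2.1 i0 - t0.1 i0) * (t.2.2 j - t'.2.2 j) = 0 := by
        linear_combination k3
      -- no zero divisors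
      have k5 : t.2.2 j - t'.2.2 j = 0 := by
        by_contra hcon
        have n1 := norm_ne_zero hD hu
        have n2 := norm_ne_zero hD hcon
        have n3 := congrArg Zsqrtd.norm k4
        rw [Zsqrtd.norm_mul] at n3
        simp at n3
        rcases n3 with n3 | n3
        · exact n1 n3
        · exact n2 n3
      exact sub_eq_zero.1 k5
    refine Prod.ext (he.1.trans he'.1.symm) (Prod.ext (he.2.trans he'.2.symm) e2)
  rw [← card_image_of_injOn hinj]
  calc _ ≤ ((Ico (0 : ℤ) M) ×ˢ (Ico (0 : ℤ) M)).card := by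
        apply card_le_card
        intro c hc
        obtain ⟨t, ht, rfl⟩ := mem_image.1 hc
        obtain ⟨_, _, hz, _⟩ := hQ t (mem_filter.1 ht).1
        obtain ⟨a1, a2, a3, a4⟩ := hX _ hz i0
        simp only [mem_product, mem_Ico]
        exact ⟨⟨a1, a2⟩, a3, a4⟩
    _ = M ^ 2 := by simp [sq]

theorem shell_collinear {ι : Type*} [Fintype ι] [DecidableEq ι] {D : ℤ} (hD : Good D) (M s R : ℕ)
    (X : Finset (ι → ℤ√D)) (hX : ∀ x ∈ X, InBox M x) (hR : ∀ x ∈ X, InShell s R x)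
    (Q : Finset ((ι → ℤ√D) × (ι → ℤ√D) × (ι → ℤ√D)))
    (hQ : ∀ t ∈ Q, t.1 ∈ X ∧ t.2.1 ∈ X ∧ t.2.2 ∈ X ∧ t.1 ≠ t.2.1 ∧ t.2.1 ≠ t.2.2 ∧
      t.1 ≠ t.2.2 ∧ Col t.1 t.2.1 t.2.2) :
    Q.card ≤ 3 * (X.card * ((2 * M + 1) * (2 * s + 1)) ^ Fintype.card ι * M ^ 2) := by
  classical
  set N := X.card * ((2 * M + 1) * (2 * s + 1)) ^ Fintype.card ι * M ^ 2 with hN
  set Q1 := Q.filter fun t => ∑ i, s1 D (t.2.1 i - t.1 i) ^ 2 < s ^ 2 with hQ1
  set Q2 := Q.filter fun t => ∑ i, s1 D (t.2.2 i - t.1 i) ^ 2 < s ^ 2 with hQ2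
  set Q3 := Q.filter fun t => ∑ i, s1 D (t.2.2 i - t.2.1 i) ^ 2 < s ^ 2 with hQ3
  have hsub : Q ⊆ Q1 ∪ (Q2 ∪ Q3) := by
    intro t ht
    obtain ⟨hx, hy, hz, h1, h2, h3, h4⟩ := hQ t ht
    rcases short hD (hR _ hx) (hR _ hy) (hR _ hz) h1 h2 h3 h4 with h | h | h
    · exact mem_union_left _ (mem_filter.2 ⟨ht, h⟩)
    · exact mem_union_right _ (mem_union_left _ (mem_filter.2 ⟨ht, h⟩))
    · exact mem_union_right _ (mem_union_right _ (mem_filter.2 ⟨ht, h⟩))
  have c1 : Q1.card ≤ N := by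
    apply card_short_col hD M s X hX
    intro t ht
    obtain ⟨ht, hs⟩ := mem_filter.1 ht
    obtain ⟨hx, hy, hz, h1, h2, h3, h4⟩ := hQ t ht
    exact ⟨hx, hy, hz, h1, hs, h4⟩
  have c2 : Q2.card ≤ N := by
    have hinj : Function.Injective (fun t : (ι → ℤ√D) × (ι → ℤ√D) × (ι → ℤ√D) =>
        (t.1, t.2.2, t.2.1)) := by
      rintro ⟨a, b, c⟩ ⟨a', b', c'⟩ h
      simp only [Prod.mk.injEq] at h
      simp [h.1, h.2.1, h.2.2]
    rw [← card_image_of_injective Q2 hinj]
    apply card_short_col hD M s X hX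
    intro q hq
    obtain ⟨t, ht, rfl⟩ := mem_image.1 hq
    obtain ⟨ht, hs⟩ := mem_filter.1 ht
    obtain ⟨hx, hy, hz, h1, h2, h3, h4⟩ := hQ t ht
    exact ⟨hx, hz, hy, h3, hs, h4.swap⟩
  have c3 : Q3.card ≤ N := by
    have hinj : Function.Injective (fun t : (ι → ℤ√D) × (ι → ℤ√D) × (ι → ℤ√D) =>
        (t.2.1, t.2.2, t.1)) := by
      rintro ⟨a, b, c⟩ ⟨a', b', c'⟩ h
      simp only [Prod.mk.injEq] at h
      simp [h.1, h.2.1, h.2.2]
    rw [← card_image_of_injective Q3 hinj]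
    apply card_short_col hD M s X hX
    intro q hq
    obtain ⟨t, ht, rfl⟩ := mem_image.1 hq
    obtain ⟨ht, hs⟩ := mem_filter.1 ht
    obtain ⟨hx, hy, hz, h1, h2, h3, h4⟩ := hQ t ht
    exact ⟨hy, hz, hx, h2, hs, h4.rot⟩
  calc Q.card ≤ (Q1 ∪ (Q2 ∪ Q3)).card := card_le_card hsub
    _ ≤ Q1.card + (Q2.card + Q3.card) :=
      (card_union_le _ _).trans (Nat.add_le_add_left (card_union_le _ _) _)
    _ ≤ 3 * N := by omega

end Vale.Agent.P036.S
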